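import Vale.Agent.P196.Orbit

/-!
Finitely presented simple groups and thin orbits.
-/

namespace Vale.Agent.Results.P196.NoLinearOrbit

open Vale.Agent.P196

universe v w

theorem result (G : Type v) [Group G] [Group.IsFinitelyPresented G]
    (hG : (IsSimpleGroup G ∧ Infinite G) ∨
      ∀ N : Subgroup G, N.Normal → N.FiniteIndex → N = ⊤) :
    (∀ (X : Type w) [MulAction G X] [MulAction.IsPretransitive G X] [Infinite X]
      (S : Finset G), Subgroup.closure (S : Set G) = ⊤ → ∀ b : ℕ,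
        ¬ ∀ A : Finset X, ∃ F : Finset X, A ⊆ F ∧
          {x ∈ (F : Set X) | ∃ s ∈ S, s • x ∉ F ∨ s⁻¹ • x ∉ F}.ncard ≤ b) ∧
    (∀ (X : Type w) [MulAction G X] [MulAction.IsPretransitive G X] [Infinite X]
      (S : Finset G), Subgroup.closure (S : Set G) = ⊤ →
      ∀ (x₀ : X) (c : ℕ) (ball : ℕ → Finset X), x₀ ∈ ball 0 →
        (∀ k, ∀ x ∈ ball k, x ∈ ball (k + 1) ∧
          ∀ s ∈ S, s • x ∈ ball (k + 1) ∧ s⁻¹ • x ∈ ball (k + 1)) →
        ¬ ∀ N, ∃ k, N ≤ k ∧ (ball k).card ≤ c * k) ∧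
    ∀ (Y : Type w) (ψ : Equiv.Perm Y) (f : G →* Equiv.Perm Y),
      (∀ g, ∃ d : ℕ, ∀ y, ∃ k : ℤ, k.natAbs ≤ d ∧ f g y = (ψ ^ k) y) → f = 1 := by
  have hq : ∀ N : Subgroup G, N.Normal → N.FiniteIndex → N = ⊤ := by
    rcases hG with ⟨hs, hi⟩ | h
    · exact simple_no_finite_index
    · exact h
  exact ⟨fun X _ _ _ S hS b => no_thin_orbit hq S hS b,
    fun X _ _ _ S hS x₀ c ball h₀ hstep => no_linear_orbit hq S hS x₀ c ball h₀ hstep,
    fun Y ψ f hf => bounded_along_perm_trivial hq ψ f hf⟩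

end Vale.Agent.Results.P196.NoLinearOrbit
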